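import Vale.Agent.P262L.Final

/-!
Euclidean Steinitz constant: `S_2(d) ≤ C √(d log (d+1))` for an absolute constant `C`.
Every finite zero-sum family of vectors of norm at most one in `ℝ^d`, of every length `N`, can be
ordered so that every partial sum has norm at most `C √(d log (d+1))`.
-/

namespace Vale.Agent.Results.P262.SteinitzSqrtLog

theorem result : ∃ C : ℝ, 0 < C ∧ ∀ (d N : ℕ)
    (v : Fin N → EuclideanSpace ℝ (Fin d)), (∀ i, ‖v i‖ ≤ 1) → ∑ i, v i = 0 →
    ∃ π : Equiv.Perm (Fin N), ∀ n : ℕ,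
      ‖∑ i ∈ Finset.univ.filter (fun i : Fin N => (i : ℕ) < n), v (π i)‖ ≤
        C * Real.sqrt (d * Real.log (d + 1)) :=
  P262L.steinitz_sqrt_log

end Vale.Agent.Results.P262.SteinitzSqrtLog
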