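import Vale.Agent.P262S.Final
import Vale.Agent.P262S.Theta

/-!
The order of growth of the Euclidean Steinitz constant: `S_2(d) = Θ(√d)`.
-/

open Filter Asymptotics

namespace Vale.Agent.Results.P262.SteinitzTheta

theorem result :
    (∃ C : ℝ, ∀ d : ℕ, 1 ≤ d →
      (P262S.betaSet d).Nonempty ∧ BddAbove (P262S.betaSet d) ∧
        Real.sqrt d / 3 ≤ P262S.S2 d ∧ P262S.S2 d ≤ C * Real.sqrt d) ∧
    (fun d : ℕ => P262S.S2 d) =Θ[atTop] (fun d : ℕ => Real.sqrt d) := by
  obtain ⟨C, hC0, hC⟩ := P262S.steinitz_sqrt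
  have key := fun d hd => P262S.theta hC d hd
  refine ⟨⟨C, fun d hd => ⟨⟨_, d + d, P262S.fam d, P262S.fam_norm d, P262S.fam_sum d, rfl⟩,
    key d hd⟩⟩, ?_, ?_⟩
  · refine IsBigO.of_bound C ?_
    filter_upwards [eventually_ge_atTop 1] with d hd
    obtain ⟨-, h1, h2⟩ := key d hd
    have h3 : 0 ≤ P262S.S2 d := le_trans (by positivity) h1
    rw [Real.norm_of_nonneg h3, Real.norm_of_nonneg (Real.sqrt_nonneg _)]
    exact h2
  · refine IsBigO.of_bound 3 ?_
    filter_upwards [eventually_ge_atTop 1] with d hd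
    obtain ⟨-, h1, h2⟩ := key d hd
    have h3 : 0 ≤ P262S.S2 d := le_trans (by positivity) h1
    rw [Real.norm_of_nonneg h3, Real.norm_of_nonneg (Real.sqrt_nonneg _)]
    linarith

end Vale.Agent.Results.P262.SteinitzTheta
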